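import Mathlib

/-!
# P228, block PW-a (helper817)

For a compact Hausdorff group `K` and `g ≠ 1` there is a finite dimensional space of continuous
functions, invariant under left translations, on which the translation by `g` is not trivial.
-/

open MeasureTheory Module.End
open scoped InnerProductSpace ENNReal

namespace Vale.Agent.P228.H817

section Abstract

variable {G H : Type*} [Group G] [NormedAddCommGroup H] [InnerProductSpace ℂ H] [CompleteSpace H]

/-- an equivariant compact operator whose range is not fixed by `g` produces a finite dimensional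
invariant eigenspace not fixed by `g` -/
theorem exists_eigen (U : G → H →L[ℂ] H) (hU : ∀ a x y, ⟪U a x, y⟫_ℂ = ⟪x, U a⁻¹ y⟫_ℂ)
    (hU1 : ∀ a x, U a (U a⁻¹ x) = x)
    (B : H →L[ℂ] H) (hB : IsCompactOperator B) (hUB : ∀ a x, B (U a x) = U a (B x))
    (g : G) (h0 : H) (hg : U g (B h0) ≠ B h0) :
    ∃ (A C : H →L[ℂ] H) (lam : ℂ), lam ≠ 0 ∧ (∀ a x, A (U a x) = U a (A x)) ∧
      FiniteDimensional ℂ (eigenspace (A : H →ₗ[ℂ] H) lam) ∧ (∀ x, A x = B (C x)) ∧
      ∃ f, A f = lam • f ∧ U g f ≠ f := by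
  set C : H →L[ℂ] H := ContinuousLinearMap.adjoint B with hC
  have hCU : ∀ a x, C (U a x) = U a (C x) := by
    intro a x
    refine ext_inner_right ℂ fun y => ?_
    rw [hC, ContinuousLinearMap.adjoint_inner_left, hU, ← hUB, ← ContinuousLinearMap.adjoint_inner_left,
      hU]
  set A : H →L[ℂ] H := B ∘L C with hA
  have hAc : IsCompactOperator A := hB.comp_clm C
  have hAsym : (A : H →ₗ[ℂ] H).IsSymmetric := by
    intro x y
    show ⟪B (C x), y⟫_ℂ = ⟪x, B (C y)⟫_ℂ
    exact (ContinuousLinearMap.adjoint_inner_right B (C x) y).symm.trans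
      (ContinuousLinearMap.adjoint_inner_left B (C y) x)
  have hAU : ∀ a x, A (U a x) = U a (A x) := by
    intro a x
    show B (C (U a x)) = U a (B (C x))
    rw [hCU, hUB]
  have hbot := ContinuousLinearMap.orthogonalComplement_iSup_eigenspaces_eq_bot hAc hAsym
  by_contra hcon
  push Not at hcon
  -- every eigenvector with nonzero eigenvalue is fixed
  have hfix : ∀ lam : ℂ, lam ≠ 0 → ∀ f, A f = lam • f → U g f = f := by
    intro lam hlam f hf
    exact hcon A C lam hlam hAU
      (ContinuousLinearMap.finite_dimensional_eigenspace hAc lam hlam) (fun x => rfl) f hf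
  apply hg
  rw [← sub_eq_zero]
  have hmem : U g (B h0) - B h0 ∈ (⨆ μ, eigenspace (A : Module.End ℂ H) μ)ᗮ := by
    rw [Submodule.mem_orthogonal]
    intro u hu
    induction hu using Submodule.iSup_induction' with
    | mem lam f hf =>
      rw [mem_eigenspace_iff] at hf
      have hf' : A f = lam • f := hf
      have e : ⟪f, U g (B h0) - B h0⟫_ℂ = ⟪U g⁻¹ f - f, B h0⟫_ℂ := by
        rw [inner_sub_right, inner_sub_left]
        congr 1
        have := hU g⁻¹ f (B h0)
        rw [inv_inv] at this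
        exact this.symm
      rw [e]
      by_cases hlam : lam = 0
      · -- then `C f = 0`
        have hCf : C f = 0 := by
          have h1 : ⟪C f, C f⟫_ℂ = 0 := by
            rw [hC, ContinuousLinearMap.adjoint_inner_left]
            have : B (C f) = 0 := by
              have : A f = B (C f) := rfl
              rw [← this, hf', hlam, zero_smul]
            rw [hC] at this
            rw [this, inner_zero_right]
          exact inner_self_eq_zero.1 h1
        rw [← ContinuousLinearMap.adjoint_inner_left]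
        show ⟪C (U g⁻¹ f - f), h0⟫_ℂ = 0
        rw [map_sub, hCU, hCf, map_zero, sub_zero, inner_zero_left]
      · have h1 : U g f = f := hfix lam hlam f hf'
        have h2 : U g⁻¹ f = f := by
          have := hU1 g⁻¹ f
          rw [inv_inv, h1] at this
          exact this
        rw [h2, sub_self, inner_zero_left]
    | zero => rw [inner_zero_left]
    | add x y _ _ hx hy => rw [inner_add_left, hx, hy, add_zero]
  rw [hbot] at hmem
  exact (Submodule.mem_bot ℂ).1 hmem

end Abstract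

section Kernel

variable {K H : Type*} [TopologicalSpace K] [CompactSpace K]
  [NormedAddCommGroup H] [InnerProductSpace ℂ H]

/-- the operator `f ↦ (x ↦ ⟪v x, f⟫)` -/
noncomputable def tmap (v : C(K, H)) : H →L[ℂ] C(K, ℂ) :=
  LinearMap.mkContinuous
    { toFun := fun f => ⟨fun x => ⟪v x, f⟫_ℂ, by fun_prop⟩
      map_add' := by intro f f'; ext x; simp
      map_smul' := by intro c f; ext x; simp } ‖v‖ (by
        intro f
        refine (ContinuousMap.norm_le _ (by positivity)).2 fun x => ?_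
        exact (norm_inner_le_norm _ _).trans
          (mul_le_mul_of_nonneg_right (v.norm_coe_le_norm x) (norm_nonneg _)))

@[simp] theorem tmap_apply (v : C(K, H)) (f : H) (x : K) : tmap v f x = ⟪v x, f⟫_ℂ := rfl

theorem isCompactOperator_tmap [CompleteSpace H] (v : C(K, H)) :
    IsCompactOperator (tmap v) := by
  have hcl : IsClosed {f : H →L[ℂ] C(K, ℂ) | IsCompactOperator f} :=
    isClosed_setOfPred_isCompactOperator
  suffices h : tmap v ∈ closure {f : H →L[ℂ] C(K, ℂ) | IsCompactOperator f} by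
    rw [hcl.closure_eq] at h; exact h
  rw [Metric.mem_closure_iff]
  intro ε hε
  have hK : IsCompact (Set.range v) := isCompact_range v.continuous
  obtain ⟨t, _, htf, hcov⟩ := hK.finite_cover_balls (half_pos hε)
  let V : Submodule ℂ H := Submodule.span ℂ t
  have hV : FiniteDimensional ℂ V := FiniteDimensional.span_of_finite ℂ htf
  refine ⟨tmap v ∘L V.starProjection, ?_, ?_⟩
  · show IsCompactOperator (tmap v ∘L V.starProjection)
    have : ProperSpace V := FiniteDimensional.proper ℂ V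
    have h1 : IsCompactOperator (V.orthogonalProjectionOnto) :=
      isCompactOperator_of_locallyCompactSpace_dom _
    exact h1.clm_comp (tmap v ∘L V.subtypeL)
  · rw [dist_eq_norm]
    refine lt_of_le_of_lt (ContinuousLinearMap.opNorm_le_bound _ (half_pos hε).le fun f => ?_)
      (half_lt_self hε)
    refine (ContinuousMap.norm_le _ (by positivity)).2 fun x => ?_
    obtain ⟨y, hy, hxy⟩ := Set.mem_iUnion₂.1 (hcov (Set.mem_range_self x))
    have hyV : y ∈ V := Submodule.subset_span hy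
    have e : (tmap v - tmap v ∘L V.starProjection) f x
        = ⟪v x - y, f - V.starProjection f⟫_ℂ := by
      have h2 : ⟪y, f - V.starProjection f⟫_ℂ = 0 :=
        (Submodule.mem_orthogonal V _).1 (Submodule.sub_starProjection_mem_orthogonal f) y hyV
      rw [inner_sub_left, h2, sub_zero, inner_sub_right]
      rfl
    rw [e]
    refine (norm_inner_le_norm _ _).trans ?_
    have h3 : ‖v x - y‖ ≤ ε / 2 := by
      rw [← dist_eq_norm]; exact (Metric.mem_ball.1 hxy).le
    have h4 : ‖f - V.starProjection f‖ ≤ ‖f‖ := by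
      have := (Vᗮ).norm_starProjection_apply_le f
      rwa [Submodule.starProjection_orthogonal_val] at this
    exact mul_le_mul h3 h4 (norm_nonneg _) (half_pos hε).le

end Kernel

section Group

variable {K : Type*} [Group K] [TopologicalSpace K] [IsTopologicalGroup K] [CompactSpace K]
  [T2Space K]

/-- left translation of continuous functions -/
noncomputable def ltr (a : K) (f : C(K, ℂ)) : C(K, ℂ) := f.comp ⟨fun x => a⁻¹ * x, by fun_prop⟩

omit [CompactSpace K] [T2Space K] in
@[simp] theorem ltr_apply (a : K) (f : C(K, ℂ)) (x : K) : ltr a f x = f (a⁻¹ * x) := rfl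

/-- **PW-a** -/
theorem exists_invariant_subspace (g : K) (hg : g ≠ 1) :
    ∃ E : Submodule ℂ C(K, ℂ), FiniteDimensional ℂ E ∧ (∀ a, ∀ f ∈ E, ltr a f ∈ E) ∧
      ∃ f ∈ E, ltr g f ≠ f := by
  borelize K
  set μ : Measure K := Measure.haar with hμ
  have hpre : ∀ a : K, MeasurePreserving (fun x => a⁻¹ * x) μ μ := fun a =>
    measurePreserving_mul_left μ a⁻¹
  set ι : C(K, ℂ) →L[ℂ] Lp ℂ 2 μ := ContinuousMap.toLp 2 μ ℂ with hι
  have hinj : Function.Injective ι := ContinuousMap.toLp_injective μ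
  let U : K → Lp ℂ 2 μ →L[ℂ] Lp ℂ 2 μ := fun a =>
    (Lp.compMeasurePreservingₗᵢ ℂ (fun x => a⁻¹ * x) (hpre a)).toContinuousLinearMap
  have hUι : ∀ a f, U a (ι f) = ι (ltr a f) := fun a f => rfl
  have hU1 : ∀ a x, U a (U a⁻¹ x) = x := by
    intro a x
    show Lp.compMeasurePreserving (fun x => a⁻¹ * x) (hpre a)
      (Lp.compMeasurePreserving (fun x => a⁻¹⁻¹ * x) (hpre a⁻¹) x) = x
    rw [← Lp.compMeasurePreserving_comp_apply]
    have : ((fun x => a⁻¹⁻¹ * x) ∘ fun x : K => a⁻¹ * x) = id := by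
      funext x; simp
    have h2 := Lp.compMeasurePreserving_id_apply (p := 2) (μb := μ) x
    convert h2
  have hUin : ∀ a x y, ⟪U a x, U a y⟫_ℂ = ⟪x, y⟫_ℂ := fun a x y =>
    LinearIsometry.inner_map_map _ x y
  have hU : ∀ a x y, ⟪U a x, y⟫_ℂ = ⟪x, U a⁻¹ y⟫_ℂ := by
    intro a x y
    rw [← hUin a x, hU1]
  -- the kernel
  obtain ⟨k, hk1, hkg, _⟩ := exists_continuous_zero_one_of_isClosed (X := K)
    (isClosed_singleton (x := (1 : K))) (isClosed_singleton (x := g))
    (by rw [Set.disjoint_singleton]; exact hg.symm)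
  let kc : C(K, ℂ) := ⟨fun x => (k x : ℂ), by fun_prop⟩
  let κ : C(K, C(K, ℂ)) := ContinuousMap.curry ⟨fun p : K × K => kc (p.1⁻¹ * p.2), by fun_prop⟩
  have hκ : ∀ x y, κ x y = kc (x⁻¹ * y) := fun x y => rfl
  let v : C(K, Lp ℂ 2 μ) := ⟨fun x => ι (κ x), by fun_prop⟩
  have hv : ∀ x, v x = ι (κ x) := fun x => rfl
  have hvU : ∀ a x, U a (v x) = v (a * x) := by
    intro a x
    rw [hv, hv, hUι]
    congr 1
    ext y
    simp [hκ, mul_assoc]
  let T : Lp ℂ 2 μ →L[ℂ] C(K, ℂ) := tmap v
  have hTU : ∀ a f, T (U a f) = ltr a (T f) := by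
    intro a f
    ext x
    show ⟪v x, U a f⟫_ℂ = ⟪v (a⁻¹ * x), f⟫_ℂ
    have := hU a⁻¹ (v x) f
    rw [inv_inv] at this
    rw [← this, hvU]
  let B : Lp ℂ 2 μ →L[ℂ] Lp ℂ 2 μ := ι ∘L T
  have hB : IsCompactOperator B := (isCompactOperator_tmap v).clm_comp ι
  have hBι : ∀ f, B f = ι (T f) := fun f => rfl
  have hUB : ∀ a x, B (U a x) = U a (B x) := by
    intro a x
    rw [hBι, hBι, hUι, hTU]
  -- the range of `B` is not fixed by `g`
  obtain ⟨h0, hh0⟩ : ∃ h0, U g (B h0) ≠ B h0 := by
    by_contra hcon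
    push Not at hcon
    have h1 : ∀ f, T (U g f) = T f := by
      intro f
      apply hinj
      rw [← hBι, ← hBι, hUB, hcon]
    have h2 : ∀ f, ⟪v (g⁻¹), f⟫_ℂ = ⟪v 1, f⟫_ℂ := by
      intro f
      have h3 := congrArg (fun w : C(K, ℂ) => w 1) (h1 f)
      have h4 := congrArg (fun w : C(K, ℂ) => w 1) (hTU g f)
      simp only [ltr_apply, mul_one] at h3 h4
      rw [h4] at h3
      exact h3
    have h5 : v g⁻¹ = v 1 := ext_inner_right ℂ h2
    rw [hv, hv] at h5
    have h6 := congrArg (fun w : C(K, ℂ) => w 1) (hinj h5)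
    simp only [hκ, inv_inv, mul_one, inv_one] at h6
    have h7 : (k g : ℂ) = (k 1 : ℂ) := h6
    rw [hk1 rfl, hkg rfl] at h7
    simp at h7
  obtain ⟨A, C, lam, hlam, hAU, hfin, hAB, f0, hf0, hgf0⟩ := exists_eigen U hU hU1 B hB hUB g h0 hh0
  refine ⟨(eigenspace (A : Lp ℂ 2 μ →ₗ[ℂ] Lp ℂ 2 μ) lam).comap (ι : C(K, ℂ) →ₗ[ℂ] Lp ℂ 2 μ),
    ?_, ?_, ?_⟩
  · -- finite dimension
    let F : (eigenspace (A : Lp ℂ 2 μ →ₗ[ℂ] Lp ℂ 2 μ) lam).comap (ι : C(K, ℂ) →ₗ[ℂ] Lp ℂ 2 μ)
        →ₗ[ℂ] eigenspace (A : Lp ℂ 2 μ →ₗ[ℂ] Lp ℂ 2 μ) lam :=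
      (ι : C(K, ℂ) →ₗ[ℂ] Lp ℂ 2 μ).restrict fun x hx => hx
    refine FiniteDimensional.of_injective F ?_
    intro x y hxy
    apply Subtype.ext
    apply hinj
    exact congrArg Subtype.val hxy
  · intro a f hf
    rw [Submodule.mem_comap, mem_eigenspace_iff] at hf ⊢
    have hf' : A (ι f) = lam • ι f := hf
    show A (ι (ltr a f)) = lam • ι (ltr a f)
    rw [← hUι, hAU, hf', map_smul]
  · refine ⟨lam⁻¹ • T (C f0), ?_, ?_⟩
    · rw [Submodule.mem_comap, mem_eigenspace_iff]
      show A (ι (lam⁻¹ • T (C f0))) = lam • ι (lam⁻¹ • T (C f0))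
      rw [map_smul, ← hBι, ← hAB, hf0, smul_smul, inv_mul_cancel₀ hlam, one_smul, hf0]
    · intro hfix
      apply hgf0
      have h1 : ι (lam⁻¹ • T (C f0)) = f0 := by
        rw [map_smul, ← hBι, ← hAB, hf0, smul_smul, inv_mul_cancel₀ hlam, one_smul]
      rw [← h1, hUι, hfix]

end Group

end Vale.Agent.P228.H817
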