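import Vale.Agent.P228.H951.Spec
import Vale.Agent.P228.H773.PWb
import Vale.Agent.P228.H817.PWa

/-!
# P228: Peter-Weyl (helper817 + helper773)
-/

namespace Vale.Agent.P228.H817

theorem pwStatement : Vale.Agent.P228.H951.PWStatement := by
  intro K _ _ _ _ _ g hg
  obtain ⟨E, hE, hinv, hne⟩ := exists_invariant_subspace g hg
  have := hE
  exact Vale.Agent.P228.H773.exists_rep g E hinv hne

end Vale.Agent.P228.H817
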